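import Vale.Agent.Lib.P031.D

/-!
P031, hand-in: ratios `V(cx) / V(x)` of the counting function of totient values.
-/

namespace Vale.Agent.Results.P031.TwoRatios

open Vale.Agent.P031 Filter Topology

/-- `V x` counts the distinct values `≤ x` of Euler's totient function.
(1) For `c > 1` the lower limit of `V(cx) / V(x)` is at most `c` and the upper limit at least `c`.
(2) If the limit exists it is `c`.
(3) If the limit exists for two numbers `c₁, c₂ > 1` with `log c₁ / log c₂` irrational, it exists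
for every `c > 0` and is `c`.
(4) It is `c` for every `c > 1` if and only if it exists for `c = 2` and for `c = 3`.
(5) Either it is `c` for every `c > 0`, or all `c > 1` for which it exists are powers of one number.
-/
theorem result :
    (∀ c ε : ℝ, 1 < c → 0 < ε → (∃ᶠ x in atTop, V (c * x) / V x < c + ε) ∧
      (∃ᶠ x in atTop, c - ε < V (c * x) / V x)) ∧
    (∀ c L : ℝ, 1 < c → Tendsto (fun x => V (c * x) / V x) atTop (𝓝 L) → L = c) ∧
    (∀ c₁ c₂ L₁ L₂ : ℝ, 1 < c₁ → 1 < c₂ → Irrational (Real.log c₁ / Real.log c₂) →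
      Tendsto (fun x => V (c₁ * x) / V x) atTop (𝓝 L₁) →
      Tendsto (fun x => V (c₂ * x) / V x) atTop (𝓝 L₂) →
      ∀ c : ℝ, 0 < c → Tendsto (fun x => V (c * x) / V x) atTop (𝓝 c)) ∧
    ((∀ c : ℝ, 1 < c → Tendsto (fun x => V (c * x) / V x) atTop (𝓝 c)) ↔
      ∃ L₂ L₃ : ℝ, Tendsto (fun x => V (2 * x) / V x) atTop (𝓝 L₂) ∧
        Tendsto (fun x => V (3 * x) / V x) atTop (𝓝 L₃)) ∧
    ((∀ c : ℝ, 0 < c → Tendsto (fun x => V (c * x) / V x) atTop (𝓝 c)) ∨
      ∃ g : ℝ, 0 < g ∧ ∀ c L : ℝ, 1 < c → Tendsto (fun x => V (c * x) / V x) atTop (𝓝 L) →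
        ∃ k : ℤ, c = g ^ k) := by
  refine ⟨fun c ε hc hε => ⟨V_freq_lt hc hε, V_freq_gt hc hε⟩, fun c L hc h => V_lim hc h,
    fun c₁ c₂ L₁ L₂ h₁ h₂ hi t₁ t₂ c hc => V_two h₁ h₂ hi t₁ t₂ hc, ⟨fun h => ?_, ?_⟩, V_dich⟩
  · exact ⟨2, 3, h 2 (by norm_num), h 3 (by norm_num)⟩
  · rintro ⟨L₂, L₃, h₂, h₃⟩ c hc
    exact V_two (by norm_num) (by norm_num) irr_log h₂ h₃ (by linarith)

end Vale.Agent.Results.P031.TwoRatios
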